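import Vale.Agent.P195.Corner.Transfer

/-!
# P195: counterexamples to the Auslander-Reiten conjecture from idempotents

If `e` is an idempotent of a finite-dimensional algebra `R`, some nonzero module is killed by `e`,
and every simple module killed by `e` has no extensions into `R` in any degree, then `e R` is a
nonprojective module over `e R e` without positive extensions by itself and by `e R e`.
-/

universe u v

open CategoryTheory CategoryTheory.Abelian

namespace Vale.Agent.P195.Corner

variable {R : Type u} [Ring R]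

theorem ev_of_subsingleton {X Y : Type u} [AddCommGroup X] [Module R X] [AddCommGroup Y]
    [Module R Y] [Subsingleton X] (i : ℕ) : EV R X Y i := by
  refine subsingleton_of_forall_eq 0 fun x => ?_
  have h : (𝟙 (ModuleCat.of R X) : ModuleCat.of R X ⟶ ModuleCat.of R X) = 0 :=
    ModuleCat.hom_ext (LinearMap.ext fun a => Subsingleton.elim _ _)
  rw [← Ext.mk₀_id_comp x, h, Ext.mk₀_zero, Ext.zero_comp]

/-- Vanishing passes to retracts in the second argument. -/
theorem ev_retract {X Y Z : Type u} [AddCommGroup X] [Module R X] [AddCommGroup Y] [Module R Y]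
    [AddCommGroup Z] [Module R Z] (ι : Y →ₗ[R] Z) (q : Z →ₗ[R] Y) (hq : q.comp ι = LinearMap.id)
    (i : ℕ) (h : EV R X Z i) : EV R X Y i := by
  refine subsingleton_of_forall_eq 0 fun x => ?_
  have hid : (ModuleCat.ofHom ι ≫ ModuleCat.ofHom q) = 𝟙 (ModuleCat.of R Y) :=
    ModuleCat.hom_ext hq
  rw [← Ext.comp_mk₀_id x, ← hid, ← Ext.mk₀_comp_mk₀, ← Ext.comp_assoc_of_second_deg_zero]
  have h0 : x.comp (Ext.mk₀ (ModuleCat.ofHom ι)) (add_zero i) = 0 := h.elim _ _
  rw [h0, Ext.zero_comp]

/-- Vanishing passes through isomorphisms in the first argument. -/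
theorem ev_congr {X X' Y : Type u} [AddCommGroup X] [Module R X] [AddCommGroup X'] [Module R X']
    [AddCommGroup Y] [Module R Y] (f : X ≃ₗ[R] X') (i : ℕ) (h : EV R X' Y i) : EV R X Y i := by
  refine subsingleton_of_forall_eq 0 fun x => ?_
  have hid : (ModuleCat.ofHom f.toLinearMap ≫ ModuleCat.ofHom f.symm.toLinearMap) =
      𝟙 (ModuleCat.of R X) := ModuleCat.hom_ext (LinearMap.ext fun a => f.symm_apply_apply a)
  rw [← Ext.mk₀_id_comp x, ← hid, ← Ext.mk₀_comp_mk₀, Ext.comp_assoc_of_second_deg_zero]
  have h0 : (Ext.mk₀ (ModuleCat.ofHom f.symm.toLinearMap)).comp x (zero_add i) = 0 := h.elim _ _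
  rw [h0, Ext.comp_zero]

variable {e : Idem R}

/-- It suffices to test the orthogonality on simple modules. -/
theorem Orth.of_simple [IsArtinianRing R]
    (h : ∀ (T : Type u) [AddCommGroup T] [Module R T] [IsSimpleModule R T],
      (∀ t : T, e.val • t = 0) → ∀ i, EV R T R i) : Orth e := by
  intro C _ _ _ hC
  have hlen : IsFiniteLength R C :=
    isFiniteLength_iff_isNoetherian_isArtinian.2 ⟨inferInstance, inferInstance⟩
  induction hlen with
  | of_subsingleton => exact fun i => ev_of_subsingleton i
  | @of_simple_quotient M _ _ N _ _ ih =>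
    intro i
    refine ev_mid N.injective_subtype N.mkQ_surjective (LinearMap.exact_subtype_mkQ N) i
      (ih (fun n => Subtype.ext (hC n.1)) i) (h _ (fun t => ?_) i)
    obtain ⟨c, rfl⟩ := Submodule.Quotient.mk_surjective _ t
    rw [← Submodule.Quotient.mk_smul, hC c, Submodule.Quotient.mk_zero]

variable (e)

/-- The inclusion of the corner ring into `e R`. -/
def inclCor : Cor e →ₗ[Cor e] Part e R where
  toFun a := ⟨a.1, left_eq e a.2⟩
  map_add' _ _ := rfl
  map_smul' _ _ := rfl

/-- The projection of `e R` onto the corner ring. -/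
def projCor : Part e R →ₗ[Cor e] Cor e where
  toFun y := ⟨e.val * y.1 * e.val, mem_carrier e y.1⟩
  map_add' x y := Subtype.ext (by simp [mul_add, add_mul])
  map_smul' a x := Subtype.ext (by
    show e.val * (a.1 * x.1) * e.val = a.1 * (e.val * x.1 * e.val)
    rw [← mul_assoc e.val a.1, left_eq e a.2, show e.val * x.1 = x.1 from x.2, mul_assoc])

theorem projCor_comp : (projCor e).comp (inclCor e) = LinearMap.id :=
  LinearMap.ext fun a => Subtype.ext a.2

theorem finite_part {k : Type v} [Field k] [Algebra k R] [Module.Finite k R] :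
    Module.Finite (Cor e) (Part e R) := by
  classical
  obtain ⟨T, hT⟩ := Module.finite_def.1 (inferInstance : Module.Finite k R)
  refine ⟨⟨T.image fun r => (⟨e.val * r, proj_mem e R r⟩ : Part e R), eq_top_iff.2 fun y _ => ?_⟩⟩
  suffices ∀ r : R, (⟨e.val * r, proj_mem e R r⟩ : Part e R) ∈ Submodule.span (Cor e)
      ((T.image fun r => (⟨e.val * r, proj_mem e R r⟩ : Part e R) : Finset _) : Set (Part e R)) by
    convert this y.1
    exact y.2.symm
  intro r
  have hr : r ∈ Submodule.span k (T : Set R) := hT ▸ Submodule.mem_top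
  induction hr using Submodule.span_induction with
  | mem x hx => exact Submodule.subset_span (Finset.mem_coe.2 (Finset.mem_image_of_mem _ hx))
  | zero =>
    convert Submodule.zero_mem _
    exact mul_zero _
  | add x y _ _ hx hy =>
    convert Submodule.add_mem _ hx hy
    exact mul_add _ _ _
  | smul c x _ hx =>
    convert Submodule.smul_mem _ (algebraMap k (Cor e) c) hx
    show e.val * (c • x) = (c • e.val) * (e.val * x)
    rw [smul_mul_assoc, ← mul_assoc, e.idem, mul_smul_comm]

variable {e}

/-- `e R` is not projective over the corner ring unless `R e R = R`. -/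
theorem Orth.not_projective [IsNoetherianRing R] (hO : Orth e)
    [Module.Finite (Cor e) (Part e R)]
    (hne : ∃ (C : Type u) (_ : AddCommGroup C) (_ : Module R C), Nontrivial C ∧
      ∀ c : C, e.val • c = 0) : ¬ Module.Projective (Cor e) (Part e R) := by
  intro hP
  obtain ⟨C, _, _, hC, hkill⟩ := hne
  obtain ⟨m, q, hq⟩ := Module.Finite.exists_fin' (Cor e) (Part e R)
  obtain ⟨s, hs⟩ := Module.projective_lifting_property q LinearMap.id hq
  choose G hG using fun j : Fin m =>
    hO.res_surjective (X := R) ((inclCor e).comp ((LinearMap.proj j).comp s))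
  let x : Fin m → Part e R := fun j => q (Pi.single j 1)
  have key : LinearMap.toSpanSingleton R R (∑ j, G j 1 * (x j).1) - LinearMap.id = 0 := by
    refine hO.res_injective _ (LinearMap.ext fun y => Subtype.ext ?_)
    have h1 : q (s y) = y := LinearMap.congr_fun hs y
    have h2 : s y = ∑ j : Fin m, s y j • (Pi.single j (1 : Cor e) : Fin m → Cor e) := by
      ext j; simp [Pi.single_apply]
    rw [h2, map_sum] at h1
    have h3 : ∀ j, (s y j).1 = y.1 * G j 1 := fun j => by
      have := congrArg Subtype.val (LinearMap.congr_fun (hG j) y)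
      show _ = _
      rw [show (s y j).1 = G j y.1 from this.symm, ← smul_eq_mul, ← map_smul, smul_eq_mul,
        mul_one]
    show y.1 * (∑ j, G j 1 * (x j).1) - y.1 = 0
    rw [sub_eq_zero, Finset.mul_sum]
    conv_rhs => rw [← h1, AddSubmonoidClass.coe_finsetSum]
    refine Finset.sum_congr rfl fun j _ => ?_
    rw [map_smul, coe_smul, h3, smul_eq_mul, mul_assoc]
  have hone : ∑ j, G j 1 * (x j).1 = (1 : R) := by
    simpa [sub_eq_zero] using LinearMap.congr_fun key (1 : R)
  obtain ⟨c, hc⟩ := exists_ne (0 : C)
  refine hc ?_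
  rw [← one_smul R c, ← hone, Finset.sum_smul]
  refine Finset.sum_eq_zero fun j _ => ?_
  rw [mul_smul, ← show e.val * (x j).1 = (x j).1 from (x j).2, mul_smul, hkill, smul_zero]

/-- The criterion: a nonprojective finitely generated module without positive self-extensions and
without positive extensions by the algebra. -/
theorem counterexample (k : Type v) [Field k] {R : Type u} [Ring R] [Algebra k R]
    [Module.Finite k R] (e : R) (he : e * e = e)
    (hne : ∃ (C : Type u) (_ : AddCommGroup C) (_ : Module R C), Nontrivial C ∧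
      ∀ c : C, e • c = 0)
    (hsimple : ∀ (T : Type u) [AddCommGroup T] [Module R T] [IsSimpleModule R T],
      (∀ t : T, e • t = 0) → ∀ i : ℕ, EV R T R i) :
    ∃ (A : Type u) (_ : Ring A) (_ : Algebra k A) (M : ModuleCat.{u} A),
      Module.Finite k A ∧ Module.Finite A M ∧ ¬ Module.Projective A M ∧
      ∀ i : ℕ, 1 ≤ i → Subsingleton (Ext M M i) ∧ Subsingleton (Ext M (ModuleCat.of A A) i) := by
  have : IsArtinianRing R := IsArtinianRing.of_finite k R
  let E : Idem R := ⟨e, he⟩
  have hO : Orth E := Orth.of_simple hsimple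
  have hfin : Module.Finite (Cor E) (Part E R) := finite_part E (k := k)
  refine ⟨Cor E, inferInstance, inferInstance, ModuleCat.of (Cor E) (Part E R),
    finite_cor E, hfin, hO.not_projective hne, fun i hi => ?_⟩
  obtain ⟨j, rfl⟩ : ∃ j, i = j + 1 := ⟨i - 1, by omega⟩
  have hR : EV R R R (j + 1) := by
    have hP : Projective (ModuleCat.of R R) := (IsProjective.iff_projective R).1 inferInstance
    exact subsingleton_of_forall_eq 0 fun x => Ext.eq_zero_of_projective x
  have h1 := hO.ev_part j R hR
  exact ⟨h1, ev_retract (inclCor E) (projCor E) (projCor_comp E) (j + 1) h1⟩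

/-- The criterion with one simple module killed by the idempotent. -/
theorem counterexample_of_simple (k : Type v) [Field k] {R : Type u} [Ring R] [Algebra k R]
    [Module.Finite k R] (e : R) (he : e * e = e) (S : Type u) [AddCommGroup S] [Module R S]
    [Nontrivial S] (hS : ∀ s : S, e • s = 0)
    (huniq : ∀ (T : Type u) [AddCommGroup T] [Module R T] [IsSimpleModule R T],
      (∀ t : T, e • t = 0) → Nonempty (T ≃ₗ[R] S))
    (hext : ∀ i : ℕ, EV R S R i) :
    ∃ (A : Type u) (_ : Ring A) (_ : Algebra k A) (M : ModuleCat.{u} A),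
      Module.Finite k A ∧ Module.Finite A M ∧ ¬ Module.Projective A M ∧
      ∀ i : ℕ, 1 ≤ i → Subsingleton (Ext M M i) ∧ Subsingleton (Ext M (ModuleCat.of A A) i) :=
  counterexample k e he ⟨S, inferInstance, inferInstance, inferInstance, hS⟩
    fun T _ _ _ hT i => let ⟨f⟩ := huniq T hT; ev_congr f i (hext i)

end Vale.Agent.P195.Corner
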