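import Mathlib

/-!
# P195: the corner ring of an idempotent and the corner of a module
-/

universe u v

namespace Vale.Agent.P195.Corner

/-- An idempotent element, bundled. -/
structure Idem (R : Type u) [Ring R] where
  val : R
  idem : val * val = val

variable {R : Type u} [Ring R] (e : Idem R)

/-- The carrier of the corner ring. -/
def carrier : AddSubgroup R where
  carrier := {x | e.val * x * e.val = x}
  add_mem' {x y} hx hy := by simp_all [mul_add, add_mul]
  zero_mem' := by simp
  neg_mem' {x} hx := by simp_all

/-- The corner ring `e R e`. -/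
abbrev Cor : Type u := ↥(carrier e)

theorem left_eq {x : R} (hx : e.val * x * e.val = x) : e.val * x = x := by
  conv_lhs => rw [← hx]
  rw [← mul_assoc, ← mul_assoc, e.idem, hx]

theorem right_eq {x : R} (hx : e.val * x * e.val = x) : x * e.val = x := by
  conv_lhs => rw [← hx]
  rw [mul_assoc, e.idem, hx]

theorem mem_carrier (x : R) : e.val * x * e.val ∈ carrier e := by
  show e.val * (e.val * x * e.val) * e.val = _
  rw [← mul_assoc e.val (e.val * x), ← mul_assoc e.val e.val x, e.idem, mul_assoc, e.idem]

instance : Mul (Cor e) where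
  mul x y := ⟨x.1 * y.1, by
    show e.val * (x.1 * y.1) * e.val = x.1 * y.1
    rw [← mul_assoc, left_eq e x.2, mul_assoc, right_eq e y.2]⟩

instance : One (Cor e) where
  one := ⟨e.val, show e.val * e.val * e.val = e.val by rw [e.idem, e.idem]⟩

@[simp] theorem coe_mul (x y : Cor e) : ((x * y : Cor e) : R) = x.1 * y.1 := rfl

@[simp] theorem coe_one : ((1 : Cor e) : R) = e.val := rfl

instance : Ring (Cor e) :=
  { (inferInstance : AddCommGroup (Cor e)), (inferInstance : Mul (Cor e)),
    (inferInstance : One (Cor e)) with
    mul_assoc := fun x y z => Subtype.ext (mul_assoc x.1 y.1 z.1)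
    one_mul := fun x => Subtype.ext (left_eq e x.2)
    mul_one := fun x => Subtype.ext (right_eq e x.2)
    left_distrib := fun x y z => Subtype.ext (mul_add x.1 y.1 z.1)
    right_distrib := fun x y z => Subtype.ext (add_mul x.1 y.1 z.1)
    zero_mul := fun x => Subtype.ext (zero_mul x.1)
    mul_zero := fun x => Subtype.ext (mul_zero x.1) }

section Algebra

variable (k : Type v) [CommRing k] [Algebra k R]

instance algebra : Algebra k (Cor e) where
  smul c x := ⟨c • x.1, by
    show e.val * (c • x.1) * e.val = c • x.1
    rw [mul_smul_comm, smul_mul_assoc]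
    exact congrArg (c • ·) x.2⟩
  algebraMap :=
    { toFun := fun c => ⟨c • e.val, by
        show e.val * (c • e.val) * e.val = c • e.val
        rw [mul_smul_comm, smul_mul_assoc, e.idem, e.idem]⟩
      map_one' := Subtype.ext (one_smul k e.val)
      map_mul' := fun a b => Subtype.ext (by
        show (a * b) • e.val = (a • e.val) * (b • e.val)
        rw [smul_mul_smul_comm, e.idem])
      map_zero' := Subtype.ext (zero_smul k e.val)
      map_add' := fun a b => Subtype.ext (add_smul a b e.val) }
  commutes' c x := Subtype.ext (by
    show (c • e.val) * x.1 = x.1 * (c • e.val)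
    rw [smul_mul_assoc, mul_smul_comm, left_eq e x.2, right_eq e x.2])
  smul_def' c x := Subtype.ext (by
    show c • x.1 = (c • e.val) * x.1
    rw [smul_mul_assoc, left_eq e x.2])

theorem finite_cor {k : Type v} [Field k] [Algebra k R] [Module.Finite k R] :
    Module.Finite k (Cor e) :=
  Module.Finite.of_injective
    ({ toFun := Subtype.val, map_add' := fun _ _ => rfl, map_smul' := fun _ _ => rfl } :
      Cor e →ₗ[k] R) Subtype.val_injective

end Algebra

/-! ### The corner of a module -/

section Part

variable (X : Type u) [AddCommGroup X] [Module R X]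

/-- The elements fixed by the idempotent. -/
def fixed : AddSubgroup X where
  carrier := {x | e.val • x = x}
  add_mem' {x y} hx hy := by simp_all [smul_add]
  zero_mem' := by simp
  neg_mem' {x} hx := by simp_all

/-- The corner `e X`. -/
abbrev Part : Type u := ↥(fixed e X)

theorem smul_mem_fixed (a : Cor e) (x : X) : a.1 • x ∈ fixed e X := by
  show e.val • a.1 • x = a.1 • x
  rw [smul_smul, left_eq e a.2]

instance : SMul (Cor e) (Part e X) where
  smul a x := ⟨a.1 • x.1, smul_mem_fixed e X a x.1⟩

@[simp] theorem coe_smul (a : Cor e) (x : Part e X) : ((a • x : Part e X) : X) = a.1 • x.1 := rfl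

instance : Module (Cor e) (Part e X) where
  one_smul x := Subtype.ext x.2
  mul_smul a b x := Subtype.ext (mul_smul a.1 b.1 x.1)
  smul_zero a := Subtype.ext (smul_zero a.1)
  smul_add a x y := Subtype.ext (smul_add a.1 x.1 y.1)
  add_smul a b x := Subtype.ext (add_smul a.1 b.1 x.1)
  zero_smul x := Subtype.ext (zero_smul R x.1)

theorem proj_mem (x : X) : e.val • x ∈ fixed e X := by
  show e.val • e.val • x = e.val • x
  rw [smul_smul, e.idem]

variable {X} {Y : Type u} [AddCommGroup Y] [Module R Y]

/-- The corner of a linear map. -/
def res (f : X →ₗ[R] Y) : Part e X →ₗ[Cor e] Part e Y where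
  toFun x := ⟨f x.1, by show e.val • f x.1 = f x.1; rw [← map_smul, x.2]⟩
  map_add' x y := Subtype.ext (map_add f x.1 y.1)
  map_smul' a x := Subtype.ext (map_smul f a.1 x.1)

@[simp] theorem coe_res (f : X →ₗ[R] Y) (x : Part e X) : ((res e f x : Part e Y) : Y) = f x.1 := rfl

end Part

end Vale.Agent.P195.Corner
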