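import Vale.Agent.P195.Homol
import Vale.Agent.P195.Corner.Ring

/-!
# P195: extension groups over a corner ring

If every finitely generated module killed by the idempotent has no extensions into `R`, then
vanishing of `Ext^i_R(X, R)` passes to `Ext^i_{eRe}(eX, eR)`.
-/

universe u

open CategoryTheory CategoryTheory.Abelian

namespace Vale.Agent.P195.Corner

variable {R : Type u} [Ring R]

section Shift

variable {K P X Y : Type u} [AddCommGroup K] [Module R K] [AddCommGroup P] [Module R P]
  [AddCommGroup X] [Module R X] [AddCommGroup Y] [Module R Y]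
variable {ι : K →ₗ[R] P} {π : P →ₗ[R] X}
variable (hι : Function.Injective ι) (hπ : Function.Surjective π) (hex : Function.Exact ι π)

include hι hπ hex

theorem ev_unshift [Module.Projective R P] (i : ℕ) (h : EV R K Y (i + 1)) : EV R X Y (i + 2) := by
  refine subsingleton_of_forall_eq 0 fun x => ?_
  have hP : Projective (ModuleCat.of R P) := (IsProjective.iff_projective P).1 inferInstance
  have : Projective (ModuleCat.shortComplexOfCompEqZero ι π hex.linearMap_comp_eq_zero).X₂ := hP
  obtain ⟨y, hy⟩ := Ext.contravariant_sequence_exact₃ (ses hι hπ hex) (ModuleCat.of R Y) x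
    (Ext.eq_zero_of_projective _) (n₀ := i + 1) (by omega)
  have hy0 : y = 0 := h.elim _ _
  rw [← hy, hy0, Ext.comp_zero]

theorem ev_one_of_extend [Module.Projective R P]
    (h : ∀ f : K →ₗ[R] Y, ∃ F : P →ₗ[R] Y, F.comp ι = f) : EV R X Y 1 := by
  refine subsingleton_of_forall_eq 0 fun x => ?_
  have hP : Projective (ModuleCat.of R P) := (IsProjective.iff_projective P).1 inferInstance
  have : Projective (ModuleCat.shortComplexOfCompEqZero ι π hex.linearMap_comp_eq_zero).X₂ := hP
  obtain ⟨y, hy⟩ := Ext.contravariant_sequence_exact₃ (ses hι hπ hex) (ModuleCat.of R Y) x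
    (Ext.eq_zero_of_projective _) (n₀ := 0) (by omega)
  obtain ⟨f, rfl⟩ := (Ext.mk₀_bijective _ _).2 y
  obtain ⟨F, hF⟩ := h f.hom
  have hf : f = (ModuleCat.shortComplexOfCompEqZero ι π hex.linearMap_comp_eq_zero).f ≫
      ModuleCat.ofHom F := by
    refine ModuleCat.hom_ext ?_
    exact hF.symm
  rw [← hy, hf, ← Ext.mk₀_comp_mk₀, ← Ext.comp_assoc_of_second_deg_zero,
    (ses hι hπ hex).extClass_comp, Ext.zero_comp]

/-- Vanishing on the ends of a short exact sequence gives it in the middle. -/
theorem ev_mid (i : ℕ) (h₁ : EV R K Y i) (h₃ : EV R X Y i) : EV R P Y i := by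
  refine subsingleton_of_forall_eq 0 fun x => ?_
  obtain ⟨y, hy⟩ := Ext.contravariant_sequence_exact₂ (ses hι hπ hex) (ModuleCat.of R Y) x
    (h₁.elim _ _)
  have hy0 : y = 0 := h₃.elim _ _
  rw [← hy, hy0, Ext.comp_zero]

/-- Vanishing on the quotient in the next degree lets it descend to the submodule. -/
theorem ev_sub (i : ℕ) (h₂ : EV R P Y i) (h₃ : EV R X Y (i + 1)) : EV R K Y i := by
  refine subsingleton_of_forall_eq 0 fun x => ?_
  obtain ⟨x₂, hx₂⟩ := Ext.contravariant_sequence_exact₁ (ses hι hπ hex) (ModuleCat.of R Y) x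
    (n₁ := i + 1) (by omega) (h₃.elim _ _)
  have h0 : x₂ = 0 := h₂.elim _ _
  rw [← hx₂, h0, Ext.comp_zero]

end Shift

theorem hom_eq_zero_of_ev {X Y : Type u} [AddCommGroup X] [Module R X] [AddCommGroup Y]
    [Module R Y] (h : EV R X Y 0) (f : X →ₗ[R] Y) : f = 0 := by
  have := (Ext.mk₀_bijective (ModuleCat.of R X) (ModuleCat.of R Y)).1
    (h.elim (Ext.mk₀ (ModuleCat.ofHom f)) (Ext.mk₀ (ModuleCat.ofHom (0 : X →ₗ[R] Y))))
  exact congrArg ModuleCat.Hom.hom this

variable (e : Idem R)

/-- Finitely generated modules killed by the idempotent have no extensions into `R`. -/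
def Orth : Prop :=
  ∀ (C : Type u) [AddCommGroup C] [Module R C] [Module.Finite R C],
    (∀ c : C, e.val • c = 0) → ∀ i, EV R C R i

/-- The `R`-submodule of `R^m` projecting onto the covers from `Re`. -/
def cover (m : ℕ) : Submodule R (Fin m → R) where
  carrier := {f | ∀ j, f j * e.val = f j}
  add_mem' {f g} hf hg j := by simp [add_mul, hf j, hg j]
  zero_mem' j := by simp
  smul_mem' r f hf j := by simp [mul_assoc, hf j]

theorem cover_split (m : ℕ) : ∃ q : (Fin m → R) →ₗ[R] cover e m,
    ∀ f : cover e m, q f.1 = f := by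
  refine ⟨{ toFun := fun f => ⟨fun j => f j * e.val, fun j => by
              show f j * e.val * e.val = _
              rw [mul_assoc, e.idem]⟩
            map_add' := fun f g => Subtype.ext (funext fun j => add_mul _ _ _)
            map_smul' := fun r f => Subtype.ext (funext fun j => mul_assoc _ _ _) },
    fun f => Subtype.ext (funext fun j => f.2 j)⟩

instance cover_projective (m : ℕ) : Module.Projective R (cover e m) := by
  obtain ⟨q, hq⟩ := cover_split e m
  exact Module.Projective.of_split (cover e m).subtype q (LinearMap.ext hq)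

instance cover_finite (m : ℕ) : Module.Finite R (cover e m) := by
  obtain ⟨q, hq⟩ := cover_split e m
  exact Module.Finite.of_surjective q fun f => ⟨f.1, hq f⟩

/-- A unit vector of the cover. -/
def unit {m : ℕ} (j : Fin m) : Part e (cover e m) :=
  ⟨⟨Pi.single j e.val, fun i => by
      by_cases h : i = j
      · subst h; simp [e.idem]
      · simp [h]⟩, Subtype.ext (funext fun i => by
      show e.val * (Pi.single j e.val : Fin m → R) i = _
      by_cases h : i = j
      · subst h; simp [e.idem]
      · simp [h])⟩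

theorem part_cover_eq {m : ℕ} (f : Part e (cover e m)) :
    f = ∑ j, (⟨e.val * f.1.1 j * e.val, mem_carrier e _⟩ : Cor e) • unit e j := by
  refine Subtype.ext (Subtype.ext (funext fun i => ?_))
  have h1 : e.val * f.1.1 i = f.1.1 i := congrFun (congrArg Subtype.val f.2) i
  simp only [AddSubmonoidClass.coe_finsetSum, Finset.sum_apply, coe_smul, SetLike.val_smul,
    Pi.smul_apply, smul_eq_mul, unit, Pi.single_apply, mul_ite, mul_zero, Finset.sum_ite_eq,
    Finset.mem_univ, if_true]
  rw [h1, f.1.2 i, f.1.2 i]

theorem part_cover_projective (m : ℕ) : Module.Projective (Cor e) (Part e (cover e m)) := by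
  refine Module.Projective.of_equiv (LinearEquiv.ofBijective
    (Fintype.linearCombination (Cor e) fun j => unit (m := m) e j) ⟨?_, fun f => ?_⟩)
  · rw [injective_iff_map_eq_zero]
    intro c hc
    funext i
    have h := congrFun (congrArg (fun z : Part e (cover e m) => z.1.1) hc) i
    simp only [Fintype.linearCombination_apply, AddSubmonoidClass.coe_finsetSum, Finset.sum_apply,
      coe_smul, SetLike.val_smul, Pi.smul_apply, smul_eq_mul, unit, Pi.single_apply, mul_ite,
      mul_zero, Finset.sum_ite_eq, Finset.mem_univ, if_true] at h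
    rw [right_eq e (c i).2] at h
    exact Subtype.ext h
  · refine ⟨fun j => ⟨e.val * f.1.1 j * e.val, mem_carrier e _⟩, ?_⟩
    rw [Fintype.linearCombination_apply]
    exact (part_cover_eq e f).symm

variable {X : Type u} [AddCommGroup X] [Module R X]

theorem exists_cover [IsNoetherianRing R] [Module.Finite R X] :
    ∃ (m : ℕ) (p : cover e m →ₗ[R] X), Function.Surjective (res e p) := by
  obtain ⟨T, hT, hspan⟩ := (Submodule.fg_span_iff_fg_span_finset_subset (R := R)
    (fixed e X : Set X)).1 (IsNoetherian.noetherian _)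
  let x : Fin T.card → X := fun j => (T.equivFin.symm j).1
  refine ⟨T.card, (Fintype.linearCombination R x).comp (cover e T.card).subtype, fun y => ?_⟩
  have hy : y.1 ∈ Submodule.span R (Set.range x) := by
    rw [show Set.range x = (T : Set X) from ?_, ← hspan]
    · exact Submodule.subset_span y.2
    · ext z
      exact ⟨fun ⟨j, hj⟩ => hj ▸ (T.equivFin.symm j).2,
        fun hz => ⟨T.equivFin ⟨z, hz⟩, by simp [x]⟩⟩
  obtain ⟨c, hc⟩ := Submodule.mem_span_range_iff_exists_fun _ |>.1 hy
  have hx : ∀ j, e.val • x j = x j := fun j => hT (T.equivFin.symm j).2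
  refine ⟨⟨⟨fun j => e.val * c j * e.val, fun j => by
    show _ * e.val = _
    rw [mul_assoc, e.idem]⟩, Subtype.ext (funext fun j => ?_)⟩, Subtype.ext ?_⟩
  · show e.val * (e.val * c j * e.val) = e.val * c j * e.val
    rw [← mul_assoc, ← mul_assoc, e.idem]
  · show (Fintype.linearCombination R x) (fun j => e.val * c j * e.val) = y.1
    rw [Fintype.linearCombination_apply]
    conv_rhs => rw [← y.2, ← hc, Finset.smul_sum]
    exact Finset.sum_congr rfl fun j _ => by rw [mul_smul, hx, mul_smul]

/-- The kernel of the cover, in both rings. -/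
theorem res_ses {m : ℕ} (p : cover e m →ₗ[R] X) :
    Function.Injective (res e (X := ↥(LinearMap.ker p)) (LinearMap.ker p).subtype) ∧
      Function.Exact (res e (X := ↥(LinearMap.ker p)) (LinearMap.ker p).subtype) (res e p) := by
  refine ⟨fun a b h => Subtype.ext (Subtype.ext
    (congrArg (fun z : Part e (cover e m) => z.1) h)), fun y => ?_⟩
  constructor
  · intro hy
    exact ⟨⟨⟨y.1, LinearMap.mem_ker.2 (congrArg Subtype.val hy)⟩, Subtype.ext y.2⟩, rfl⟩
  · rintro ⟨a, rfl⟩
    exact Subtype.ext (LinearMap.mem_ker.1 a.1.2)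

theorem rangeRestrict_exact {m : ℕ} (p : cover e m →ₗ[R] X) :
    Function.Exact (LinearMap.ker p).subtype p.rangeRestrict := by
  rw [LinearMap.exact_iff, LinearMap.ker_rangeRestrict, Submodule.range_subtype]

theorem coker_killed {m : ℕ} (p : cover e m →ₗ[R] X) (hp : Function.Surjective (res e p))
    (c : X ⧸ LinearMap.range p) : e.val • c = 0 := by
  obtain ⟨x, rfl⟩ := Submodule.Quotient.mk_surjective _ c
  rw [← Submodule.Quotient.mk_smul, Submodule.Quotient.mk_eq_zero]
  obtain ⟨z, hz⟩ := hp ⟨e.val • x, proj_mem e X x⟩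
  exact ⟨z.1, congrArg Subtype.val hz⟩

variable [IsNoetherianRing R] [Module.Finite R X] {e}

theorem Orth.ev_range (hO : Orth e) {m : ℕ} (p : cover e m →ₗ[R] X)
    (hp : Function.Surjective (res e p)) (i : ℕ) (h : EV R X R i) :
    EV R (LinearMap.range p) R i :=
  ev_sub (LinearMap.range p).injective_subtype (LinearMap.range p).mkQ_surjective
    (LinearMap.exact_subtype_mkQ _) i h (hO _ (coker_killed e p hp) (i + 1))

theorem Orth.extend (hO : Orth e) {m : ℕ} (p : cover e m →ₗ[R] X)
    (hp : Function.Surjective (res e p)) (g : LinearMap.range p →ₗ[R] R) :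
    ∃ G : X →ₗ[R] R, G.comp (LinearMap.range p).subtype = g :=
  ev_extend (LinearMap.range p).injective_subtype (LinearMap.range p).mkQ_surjective
    (LinearMap.exact_subtype_mkQ _) (hO _ (coker_killed e p hp) 1) g

/-- A map into `R` is determined on the corner. -/
theorem Orth.res_injective (hO : Orth e) (g : X →ₗ[R] R) (hg : res e g = 0) : g = 0 := by
  obtain ⟨m, p, hp⟩ := exists_cover (X := X) e
  have hgp : g.comp p = 0 := by
    refine LinearMap.ext fun f => ?_
    show g (p f) = 0
    have hf : f = ∑ j, f.1 j • (unit e j).1 := by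
      refine Subtype.ext (funext fun i => ?_)
      simp [unit, Pi.single_apply, f.2 i]
    rw [hf, map_sum, map_sum]
    refine Finset.sum_eq_zero fun j _ => ?_
    rw [map_smul, map_smul]
    have := congrArg Subtype.val (LinearMap.congr_fun hg (res e p (unit e j)))
    simp only [coe_res] at this
    rw [this]
    simp
  obtain ⟨φ, hφ⟩ : ∃ φ : (X ⧸ LinearMap.range p) →ₗ[R] R, φ.comp (LinearMap.range p).mkQ = g := by
    refine ⟨(LinearMap.range p).liftQ g ?_, Submodule.liftQ_mkQ _ _ _⟩
    rintro _ ⟨f, rfl⟩
    exact LinearMap.congr_fun hgp f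
  rw [← hφ, hom_eq_zero_of_ev (hO _ (coker_killed e p hp) 0) φ, LinearMap.zero_comp]

/-- Every map of corners comes from a map into `R`. -/
theorem Orth.res_surjective (hO : Orth e) (g : Part e X →ₗ[Cor e] Part e R) :
    ∃ G : X →ₗ[R] R, res e G = g := by
  obtain ⟨m, p, hp⟩ := exists_cover (X := X) e
  let G₀ : cover e m →ₗ[R] R :=
    ∑ j, (LinearMap.toSpanSingleton R R ((g (res e p (unit e j))).1)).comp
      ((LinearMap.proj j).comp (cover e m).subtype)
  have hG₀ : ∀ y : Part e (cover e m), G₀ y.1 = (g (res e p y)).1 := by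
    intro y
    conv_rhs => rw [part_cover_eq e y, map_sum, map_sum]
    simp only [G₀, LinearMap.sum_apply, LinearMap.comp_apply, Submodule.subtype_apply,
      LinearMap.proj_apply, LinearMap.toSpanSingleton_apply, AddSubmonoidClass.coe_finsetSum]
    refine Finset.sum_congr rfl fun j _ => ?_
    rw [map_smul, map_smul, coe_smul]
    show y.1.1 j • _ = (e.val * y.1.1 j * e.val) • _
    rw [show e.val * y.1.1 j = y.1.1 j from congrFun (congrArg Subtype.val y.2) j, y.1.2 j]
  have hker : LinearMap.ker p ≤ LinearMap.ker G₀ := by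
    intro z hz
    have hfin : Module.Finite R (LinearMap.ker p) := Module.Finite.of_fg (IsNoetherian.noetherian _)
    have hzero : res e (X := ↥(LinearMap.ker p)) (G₀.comp (LinearMap.ker p).subtype) = 0 := by
      refine LinearMap.ext fun y => Subtype.ext ?_
      have := hG₀ (res e (X := ↥(LinearMap.ker p)) (LinearMap.ker p).subtype y)
      rw [show res e p (res e (X := ↥(LinearMap.ker p)) (LinearMap.ker p).subtype y) = 0 from Subtype.ext
        (LinearMap.mem_ker.1 y.1.2), map_zero] at this
      simpa using this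
    exact LinearMap.congr_fun (hO.res_injective _ hzero) ⟨z, hz⟩
  obtain ⟨G, hG⟩ := hO.extend p hp
    (((LinearMap.ker p).liftQ G₀ hker).comp p.quotKerEquivRange.symm.toLinearMap)
  refine ⟨G, LinearMap.ext fun y => ?_⟩
  obtain ⟨z, rfl⟩ := hp y
  refine Subtype.ext ?_
  rw [← hG₀ z]
  have h1 := LinearMap.congr_fun hG ⟨p z.1, z.1, rfl⟩
  show G (p z.1) = _
  refine h1.trans ?_
  show ((LinearMap.ker p).liftQ G₀ hker) (p.quotKerEquivRange.symm ⟨p z.1, _⟩) = _
  exact (congrArg _ (LinearMap.quotKerEquivRange_symm_apply_image p z.1 _)).trans rfl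

omit [Module.Finite R X]

/-- Vanishing in positive degrees passes to the corner. -/
theorem Orth.ev_part (hO : Orth e) : ∀ (i : ℕ) (X : Type u) [AddCommGroup X] [Module R X]
    [Module.Finite R X], EV R X R (i + 1) → EV (Cor e) (Part e X) (Part e R) (i + 1) := by
  intro i
  induction i with
  | zero =>
    intro X _ _ _ hX
    obtain ⟨m, p, hp⟩ := exists_cover (X := X) e
    have := part_cover_projective e m
    have hfin : Module.Finite R (LinearMap.ker p) := Module.Finite.of_fg (IsNoetherian.noetherian _)
    refine ev_one_of_extend (res_ses e p).1 hp (res_ses e p).2 fun f => ?_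
    obtain ⟨G, hG⟩ := hO.res_surjective f
    obtain ⟨F, hF⟩ : ∃ F : cover e m →ₗ[R] R, F.comp (LinearMap.ker p).subtype = G :=
      ev_extend (K := ↥(LinearMap.ker p)) (P := ↥(cover e m)) (X := ↥(LinearMap.range p))
        (ι := (LinearMap.ker p).subtype) (LinearMap.ker p).injective_subtype p.surjective_rangeRestrict
      (rangeRestrict_exact e p)
      (hO.ev_range p hp 1 hX) G
    refine ⟨res e F, ?_⟩
    rw [← hG, ← hF]
    rfl
  | succ i ih =>
    intro X _ _ _ hX
    obtain ⟨m, p, hp⟩ := exists_cover (X := X) e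
    have := part_cover_projective e m
    have hfin : Module.Finite R (LinearMap.ker p) := Module.Finite.of_fg (IsNoetherian.noetherian _)
    refine ev_unshift (res_ses e p).1 hp (res_ses e p).2 i (ih _ ?_)
    exact ev_shift (LinearMap.ker p).injective_subtype p.surjective_rangeRestrict
      (rangeRestrict_exact e p)
      i (hO.ev_range p hp (i + 2) hX)

end Vale.Agent.P195.Corner
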